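import Mathlib

/-!
# Averages over signs and over permutations in an inner product space
-/

namespace Vale.Agent.P085.Mix

open Finset

variable {ι : Type*} {E : Type*} [NormedAddCommGroup E] [InnerProductSpace ℝ E]

/-- the sign attached to a Boolean -/
def sgn (b : Bool) : ℝ := if b then 1 else -1

lemma sgn_not (b : Bool) : sgn (!b) = -sgn b := by cases b <;> simp [sgn]

lemma sgn_sq (b : Bool) : sgn b * sgn b = 1 := by cases b <;> simp [sgn]

lemma abs_sgn (b : Bool) : |sgn b| = 1 := by cases b <;> simp [sgn]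

variable [Fintype ι] [DecidableEq ι]

/-- the flip of one sign -/
def flipAt (a : ι) (ε : ι → Bool) : ι → Bool := Function.update ε a (!ε a)

omit [Fintype ι] in
lemma flipAt_involutive (a : ι) : Function.Involutive (flipAt a) := fun ε => by
  funext x
  by_cases h : x = a
  · subst h; simp [flipAt]
  · simp [flipAt, h]

/-- the mixed term of one sign averages out -/
lemma sum_flip (a : ι) (X Y : (ι → Bool) → E) (hX : ∀ ε, X (flipAt a ε) = X ε)
    (hY : ∀ ε, Y (flipAt a ε) = Y ε) :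
    ∑ ε, ‖X ε + sgn (ε a) • Y ε‖ ^ 2 = ∑ ε, (‖X ε‖ ^ 2 + ‖Y ε‖ ^ 2) := by
  have e := Equiv.sum_comp (flipAt_involutive a).toPerm fun ε => ‖X ε + sgn (ε a) • Y ε‖ ^ 2
  have e' : ∀ ε, ‖X (flipAt a ε) + sgn (flipAt a ε a) • Y (flipAt a ε)‖ ^ 2 =
      ‖X ε - sgn (ε a) • Y ε‖ ^ 2 := fun ε => by
    rw [hX, hY, flipAt, Function.update_self, sgn_not, neg_smul, sub_eq_add_neg]
  simp only [Function.Involutive.coe_toPerm, e'] at e
  have h : ∑ ε, (‖X ε + sgn (ε a) • Y ε‖ ^ 2 + ‖X ε - sgn (ε a) • Y ε‖ ^ 2) =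
      ∑ ε, 2 * (‖X ε‖ ^ 2 + ‖Y ε‖ ^ 2) := by
    refine sum_congr rfl fun ε _ => ?_
    rw [norm_add_sq_real, norm_sub_sq_real, norm_smul, Real.norm_eq_abs, abs_sgn, one_mul]
    ring
  rw [sum_add_distrib, e, ← mul_sum] at h
  linarith

/-- signed sums are orthogonal on average -/
lemma sum_signs_sq (A : Finset ι) (v : ι → E) :
    ∑ ε : ι → Bool, ‖∑ q ∈ A, sgn (ε q) • v q‖ ^ 2 =
      (Fintype.card (ι → Bool) : ℝ) * ∑ q ∈ A, ‖v q‖ ^ 2 := by
  induction A using Finset.induction with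
  | empty => simp
  | insert a A ha ih =>
    have hX : ∀ ε, (∑ q ∈ A, sgn (flipAt a ε q) • v q) = ∑ q ∈ A, sgn (ε q) • v q := fun ε =>
      sum_congr rfl fun q hq => by
        rw [flipAt, Function.update_of_ne fun h => ha (by rw [← h]; exact hq)]
    simp only [sum_insert ha, add_comm (sgn _ • v a)]
    rw [sum_flip a (fun ε => ∑ q ∈ A, sgn (ε q) • v q) (fun _ => v a) hX fun _ => rfl,
      sum_add_distrib, ih, sum_const, card_univ, nsmul_eq_mul]
    ring

/-- the average of a signed quadratic sum -/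
lemma sum_signs_quad (c : ι → ι → E) (A : Finset ι) (D : E) :
    ∑ ε : ι → Bool, ‖D + ∑ p ∈ A, ∑ q ∈ A, (sgn (ε p) * sgn (ε q)) • c p q‖ ^ 2 ≤
      (Fintype.card (ι → Bool) : ℝ) *
        (‖D + ∑ p ∈ A, c p p‖ ^ 2 + 2 * ∑ p ∈ A, ∑ q ∈ A, ‖c p q‖ ^ 2) := by
  induction A using Finset.induction generalizing D with
  | empty => simp
  | insert a A ha ih =>
    have hne : ∀ q ∈ A, q ≠ a := fun q hq h => ha (by rw [← h]; exact hq)
    set X := fun ε : ι → Bool => D + c a a + ∑ p ∈ A, ∑ q ∈ A, (sgn (ε p) * sgn (ε q)) • c p q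
    set Y := fun ε : ι → Bool => ∑ q ∈ A, sgn (ε q) • (c a q + c q a)
    have hX : ∀ ε, X (flipAt a ε) = X ε := fun ε => by
      refine congrArg (_ + ·) (sum_congr rfl fun p hp => sum_congr rfl fun q hq => ?_)
      rw [flipAt, Function.update_of_ne (hne p hp), Function.update_of_ne (hne q hq)]
    have hY : ∀ ε, Y (flipAt a ε) = Y ε := fun ε => sum_congr rfl fun q hq => by
      rw [flipAt, Function.update_of_ne (hne q hq)]
    have e : ∀ ε : ι → Bool, D + ∑ p ∈ insert a A, ∑ q ∈ insert a A,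
        (sgn (ε p) * sgn (ε q)) • c p q = X ε + sgn (ε a) • Y ε := fun ε => by
      have h1 : ∑ q ∈ A, (sgn (ε a) * sgn (ε q)) • c a q =
          sgn (ε a) • ∑ q ∈ A, sgn (ε q) • c a q := by
        rw [smul_sum]; exact sum_congr rfl fun q _ => mul_smul _ _ _
      have h2 : ∑ p ∈ A, (sgn (ε p) * sgn (ε a)) • c p a =
          sgn (ε a) • ∑ q ∈ A, sgn (ε q) • c q a := by
        rw [smul_sum]; exact sum_congr rfl fun q _ => by rw [mul_comm, mul_smul]
      simp only [sum_insert ha, sum_add_distrib, sgn_sq, one_smul, h1, h2, X, Y, smul_add]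
      abel
    simp only [e]
    rw [sum_flip a X Y hX hY, sum_add_distrib]
    have b1 := ih (D + c a a)
    have b2 : ∑ ε, ‖Y ε‖ ^ 2 ≤ (Fintype.card (ι → Bool) : ℝ) *
        (2 * ∑ q ∈ A, ‖c a q‖ ^ 2 + 2 * ∑ q ∈ A, ‖c q a‖ ^ 2) := by
      rw [show ∑ ε, ‖Y ε‖ ^ 2 = _ from sum_signs_sq A fun q => c a q + c q a]
      refine mul_le_mul_of_nonneg_left ?_ (Nat.cast_nonneg _)
      rw [mul_sum, mul_sum, ← sum_add_distrib]
      refine sum_le_sum fun q _ => ?_
      nlinarith [norm_add_le (c a q) (c q a), norm_nonneg (c a q + c q a), norm_nonneg (c a q),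
        norm_nonneg (c q a), sq_nonneg (‖c a q‖ - ‖c q a‖)]
    have b3 : (0 : ℝ) ≤ (Fintype.card (ι → Bool) : ℝ) * ‖c a a‖ ^ 2 := by positivity
    simp only [sum_insert ha, sum_add_distrib, ← add_assoc]
    simp only [X] at *
    nlinarith

/-- the number of permutations -/
lemma card_mul_sum_perm (g : ι → ℝ) (a : ι) :
    (Fintype.card ι : ℝ) * ∑ σ : Equiv.Perm ι, g (σ a) =
      (Fintype.card (Equiv.Perm ι) : ℝ) * ∑ j, g j := by
  have h : ∀ b, ∑ σ : Equiv.Perm ι, g (σ b) = ∑ σ : Equiv.Perm ι, g (σ a) := fun b => by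
    rw [← Equiv.sum_comp (Equiv.mulRight (Equiv.swap a b)) fun σ : Equiv.Perm ι => g (σ a)]
    simp [Equiv.Perm.mul_apply]
  calc (Fintype.card ι : ℝ) * ∑ σ : Equiv.Perm ι, g (σ a)
      = ∑ b, ∑ σ : Equiv.Perm ι, g (σ b) := by
        simp only [h, sum_const, card_univ, nsmul_eq_mul]
    _ = ∑ σ : Equiv.Perm ι, ∑ j, g j := by
        rw [sum_comm]; exact sum_congr rfl fun σ _ => Equiv.sum_comp σ g
    _ = _ := by rw [sum_const, card_univ, nsmul_eq_mul]

lemma card_mul_sum_perm₂ (g : ι → ι → ℝ) {a b : ι} (hab : a ≠ b) :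
    ((Fintype.card ι : ℝ) * (Fintype.card ι - 1)) * ∑ σ : Equiv.Perm ι, g (σ a) (σ b) =
      (Fintype.card (Equiv.Perm ι) : ℝ) * ∑ j, ∑ k ∈ univ.erase j, g j k := by
  have h : ∀ a' b', a' ≠ b' →
      ∑ σ : Equiv.Perm ι, g (σ a') (σ b') = ∑ σ : Equiv.Perm ι, g (σ a) (σ b) := by
    intro a' b' h'
    obtain ⟨π, hπa, hπb⟩ : ∃ π : Equiv.Perm ι, π a = a' ∧ π b = b' := by
      refine ⟨Equiv.swap (Equiv.swap a a' b) b' * Equiv.swap a a', ?_, by simp⟩
      rw [Equiv.Perm.mul_apply, Equiv.swap_apply_left, Equiv.swap_apply_of_ne_of_ne _ h']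
      intro e
      have := congrArg (Equiv.swap a a') e
      rw [Equiv.swap_apply_self, Equiv.swap_apply_right] at this
      exact hab this
    rw [← Equiv.sum_comp (Equiv.mulRight π) fun σ : Equiv.Perm ι => g (σ a) (σ b)]
    simp [Equiv.Perm.mul_apply, hπa, hπb]
  calc ((Fintype.card ι : ℝ) * (Fintype.card ι - 1)) * ∑ σ : Equiv.Perm ι, g (σ a) (σ b)
      = ∑ a', ∑ b' ∈ univ.erase a', ∑ σ : Equiv.Perm ι, g (σ a') (σ b') := by
        rw [sum_congr rfl fun a' _ => sum_congr rfl fun b' hb' =>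
          h a' b' (ne_of_mem_erase hb').symm]
        simp only [sum_const, card_erase_of_mem (mem_univ _), card_univ, nsmul_eq_mul]
        have : 1 ≤ Fintype.card ι := Fintype.card_pos_iff.2 ⟨a⟩
        push_cast [this]
        ring
    _ = ∑ σ : Equiv.Perm ι, ∑ j, ∑ k ∈ univ.erase j, g j k := by
        rw [sum_congr rfl fun a' _ => sum_comm, sum_comm]
        refine sum_congr rfl fun σ _ => ?_
        rw [← Equiv.sum_comp σ fun j => ∑ k ∈ univ.erase j, g j k]
        refine sum_congr rfl fun j _ => ?_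
        rw [sum_erase_eq_sub (mem_univ _), sum_erase_eq_sub (mem_univ _), Equiv.sum_comp σ (g (σ j))]
    _ = _ := by rw [sum_const, card_univ, nsmul_eq_mul]

/-- the average square of a sum over a random subfamily of given size -/
lemma sum_perm_sq (f : ι → E) (A : Finset ι) :
    (Fintype.card ι : ℝ) ^ 2 * ∑ σ : Equiv.Perm ι, ‖∑ a ∈ A, f (σ a)‖ ^ 2 ≤
      (Fintype.card (Equiv.Perm ι) : ℝ) *
        ((A.card : ℝ) * Fintype.card ι * ∑ j, ‖f j‖ ^ 2 + (A.card : ℝ) ^ 2 * ‖∑ j, f j‖ ^ 2) := by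
  rcases A.eq_empty_or_nonempty with hA | ⟨a₀, ha₀⟩
  · subst hA; simp
  set g := fun j k : ι => @inner ℝ _ _ (f j) (f k) with hg
  set n := (Fintype.card ι : ℝ)
  set P := (Fintype.card (Equiv.Perm ι) : ℝ)
  set Q := ∑ j, ‖f j‖ ^ 2
  set T := ‖∑ j, f j‖ ^ 2
  have hgg : ∀ j, g j j = ‖f j‖ ^ 2 := fun j => real_inner_self_eq_norm_sq _
  have hsq : ∀ σ : Equiv.Perm ι, ‖∑ a ∈ A, f (σ a)‖ ^ 2 =
      ∑ a ∈ A, (‖f (σ a)‖ ^ 2 + ∑ b ∈ A.erase a, g (σ a) (σ b)) := fun σ => by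
    rw [← real_inner_self_eq_norm_sq, sum_inner]
    refine sum_congr rfl fun a ha => ?_
    rw [inner_sum, ← add_sum_erase _ _ ha, real_inner_self_eq_norm_sq]
  have hT : ∑ j, ∑ k ∈ univ.erase j, g j k = T - Q := by
    have : T = ∑ j, ∑ k, g j k := by
      simp only [T, ← real_inner_self_eq_norm_sq, sum_inner, inner_sum, g]
      exact sum_comm
    rw [this]
    simp only [sum_erase_eq_sub (mem_univ _), sum_sub_distrib, hgg, Q]
  have hn1 : 1 ≤ n := Nat.one_le_cast.2 (Fintype.card_pos_iff.2 ⟨a₀⟩)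
  have hk : (A.card : ℝ) ≤ n := Nat.cast_le.2 (card_le_univ A)
  have hk1 : 1 ≤ (A.card : ℝ) := Nat.one_le_cast.2 (card_pos.2 ⟨a₀, ha₀⟩)
  have hQ : 0 ≤ Q := sum_nonneg fun _ _ => sq_nonneg _
  have hT0 : 0 ≤ T := sq_nonneg _
  have hP : 0 ≤ P := Nat.cast_nonneg _
  simp only [hsq]
  rw [sum_comm]
  simp only [sum_add_distrib, mul_add, mul_sum]
  have h1 : ∀ a, n ^ 2 * ∑ σ : Equiv.Perm ι, ‖f (σ a)‖ ^ 2 = n * (P * Q) := fun a => by
    rw [sq, mul_assoc, card_mul_sum_perm (fun j => ‖f j‖ ^ 2) a]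
  have h2 : ∀ a ∈ A, ∀ b ∈ A.erase a,
      n ^ 2 * ∑ σ : Equiv.Perm ι, g (σ a) (σ b) ≤ P * (A.card / (A.card - 1)) * T := by
    intro a ha b hb
    obtain ⟨hba, hbA⟩ := mem_erase.1 hb
    have h := card_mul_sum_perm₂ g hba.symm
    rw [hT] at h
    have hn2 : 2 ≤ n := by
      have : ({a, b} : Finset ι).card ≤ Fintype.card ι := card_le_univ _
      rw [card_pair hba.symm] at this
      simp only [n]
      exact_mod_cast this
    have e : n ^ 2 * ∑ σ : Equiv.Perm ι, g (σ a) (σ b) = n / (n - 1) * (P * (T - Q)) := by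
      rw [← h]
      field_simp [show n - 1 ≠ 0 by linarith]
      simp only [n]
      ring
    rw [e]
    have hA1 : 1 < (A.card : ℝ) := by
      exact_mod_cast (one_lt_card.2 ⟨a, ha, b, hbA, hba.symm⟩ : 1 < A.card)
    calc n / (n - 1) * (P * (T - Q)) ≤ n / (n - 1) * (P * T) :=
          mul_le_mul_of_nonneg_left (mul_le_mul_of_nonneg_left (by linarith) hP)
            (div_nonneg (by linarith) (by linarith))
      _ ≤ (A.card : ℝ) / (A.card - 1) * (P * T) := by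
          refine mul_le_mul_of_nonneg_right ?_ (mul_nonneg hP hT0)
          rw [div_le_div_iff₀ (by linarith) (by linarith)]
          nlinarith
      _ = _ := by ring
  have s1 : ∑ a ∈ A, ∑ σ : Equiv.Perm ι, n ^ 2 * ‖f (σ a)‖ ^ 2 = (A.card : ℝ) * (n * (P * Q)) := by
    simp only [← mul_sum, h1, sum_const, nsmul_eq_mul]
    ring
  have s2 : ∑ a ∈ A, ∑ σ : Equiv.Perm ι, ∑ b ∈ A.erase a, n ^ 2 * g (σ a) (σ b) ≤
      (A.card : ℝ) ^ 2 * (P * T) := by
    refine (sum_le_sum fun a ha => ?_ : _ ≤ ∑ a ∈ A, (A.card : ℝ) * (P * T)).trans_eq ?_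
    · rw [sum_comm]
      simp only [← mul_sum]
      rw [mul_sum]
      refine (sum_le_sum fun b hb => h2 a ha b hb).trans ?_
      rw [sum_const, card_erase_of_mem ha, nsmul_eq_mul,
        Nat.cast_sub (card_pos.2 ⟨a, ha⟩ : 1 ≤ A.card), Nat.cast_one]
      rcases eq_or_lt_of_le hk1 with hA1 | hA1
      · rw [← hA1]
        simp only [sub_self, zero_mul]
        exact mul_nonneg zero_le_one (mul_nonneg hP hT0)
      · exact le_of_eq (by field_simp [show (A.card : ℝ) - 1 ≠ 0 by linarith])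
    · rw [sum_const, nsmul_eq_mul]; ring
  nlinarith [s1, s2]

end Vale.Agent.P085.Mix
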