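import Vale.Agent.P085.Interfaces2
import Vale.Agent.P085.Toolkit.Trace

/-!
# Flat refinements from equal partitions which spread positive contractions out
-/

namespace Vale.Agent.P085

open scoped InnerProductSpace
open Finset

universe u

variable {H : Type u} [NormedAddCommGroup H] [InnerProductSpace ℂ H] [CompleteSpace H]
variable {M : VonNeumannAlgebra H} {ξ : ℕ → H}

/-- flat refinements -/
theorem flatOut (T : Setup M ξ) (hMix : MixOut M ξ) (hParts : EqualPartsOut M ξ) :
    FlatOut M ξ := by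
  intro p hp _ K P Q hK hP hQ hPt hQt z hz hz1 hpz hzq r hr
  have hξ := T.summable
  have hKR : (0 : ℝ) < K := Nat.cast_pos.2 hK
  have hrR : (0 : ℝ) < r := Nat.cast_pos.2 hr
  choose Q' hQ' hQ't using fun b => hParts (Q b) (hQ.proj b) r hr
  have hQ'tr : ∀ b j, trP ξ (Q' b j) = 1 / (2 * K * r) := fun b j => by
    rw [hQ't, hQt, div_div]
  set R := fun (a : Fin K) (x : Fin K × Fin r) => P a * z * Q' x.1 x.2
  have hR : ∀ a x, R a x ∈ M := fun a x =>
    mul_mem (mul_mem (hP.proj a).1 hz) ((hQ' x.1).proj x.2).1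
  have hRn : ∀ a x, ‖R a x‖ ≤ 1 := fun a x => (norm_mul_le _ _).trans (mul_le_one₀
    ((norm_mul_le _ _).trans (mul_le_one₀ (hP.proj a).norm_le_one (norm_nonneg _) hz1))
    (norm_nonneg _) ((hQ' x.1).proj x.2).norm_le_one)
  set X := fun (a : Fin K) (t : Fin (K * r)) =>
    R a (finProdFinEquiv.symm t) * star (R a (finProdFinEquiv.symm t))
  have hte : ∀ a, 0 < trP ξ (P a) := fun a => by rw [hPt]; positivity
  choose P' hP' hP't hbound using fun a => hMix (P a) (hP.proj a) (hte a) (K * r) (X a)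
    (fun t => ⟨mul_mem (hR a _) (star_mem (hR a _)), mul_star_self_nonneg _,
      (norm_mul_le _ _).trans (by
        rw [norm_star]; exact mul_le_one₀ (hRn a _) (norm_nonneg _) (hRn a _)),
      by simp only [X, R, ← mul_assoc, (hP.proj a).mul_self]⟩) r hr (1 / (K * r)) (by positivity)
  refine ⟨P', Q', hP', hQ', fun a i => by rw [hP't, hPt, div_div], hQ'tr, ?_⟩
  -- the vectors of the rows
  have hqP : IsPartition M (1 - p) fun x : Fin K × Fin r => Q' x.1 x.2 := hQ.refine' hQ'
  have hmass : ∀ a, ∑ x, n2 ξ (R a x) ^ 2 ≤ 1 / (2 * K) := by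
    intro a
    have h : n2 ξ (∑ x, R a x) ^ 2 = ∑ x, n2 ξ (R a x) ^ 2 := by
      refine n2_sq_sum_of_orth hξ _ _ fun x _ y _ hxy => ?_
      rw [T.trace.comm _ (star_mem (hR a x)) _ (hR a y)]
      simp only [R, star_mul, (hqP.proj x).star_eq, mul_assoc]
      rw [← mul_assoc (Q' y.1 y.2), hqP.orth y x hxy.symm]
      simp [vecState]
    rw [← h, ← hPt a, trP, ← mul_sum, hqP.total, mul_assoc, hzq]
    refine pow_le_pow_left₀ (n2_nonneg _) ((T.n2_mul_le' (hP.proj a).1 hz).trans ?_) 2
    exact mul_le_of_le_one_right (n2_nonneg _) hz1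
  have hcell : ∀ a x, n2 ξ (R a x) ^ 2 ≤ 1 / (2 * K * r) := fun a x => by
    rw [← hQ'tr x.1 x.2, trP]
    refine pow_le_pow_left₀ (n2_nonneg _) ((n2_mul_le hξ _ _).trans ?_) 2
    exact mul_le_of_le_one_left (n2_nonneg _) ((norm_mul_le _ _).trans
      (mul_le_one₀ (hP.proj a).norm_le_one (norm_nonneg _) hz1))
  have hterm : ∀ a i b j, n2 ξ (star (P' a i * z * Q' b j) * (P' a i * z * Q' b j)) ^ 2 =
      n2 ξ (P' a i * X a (finProdFinEquiv (b, j)) * P' a i) ^ 2 := by
    intro a i b j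
    set A := P' a i * z * Q' b j
    have hA : A ∈ M := mul_mem (mul_mem ((hP' a).proj i).1 hz) ((hQ' b).proj j).1
    have e1 : P' a i * X a (finProdFinEquiv (b, j)) * P' a i = A * star A := by
      simp only [X, R, A, Equiv.symm_apply_apply, star_mul, (hP.proj a).star_eq,
        ((hP' a).proj i).star_eq, ((hQ' b).proj j).star_eq, ← mul_assoc, (hP' a).cell_mul i]
      simp only [mul_assoc, (hP' a).mul_cell i]
    rw [e1, n2_sq_eq hξ, n2_sq_eq hξ]
    have h := T.trace.comm (star A * A * star A) (mul_mem (mul_mem (star_mem hA) hA) (star_mem hA))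
      A hA
    simpa only [star_mul, star_star, mul_assoc] using congrArg Complex.re h
  have hrow : ∀ a, ∑ i, ∑ b, ∑ j,
      n2 ξ (star (P' a i * z * Q' b j) * (P' a i * z * Q' b j)) ^ 2 ≤
        3 / (K * r) + 1 / (K * r) := by
    intro a
    have e : ∑ i, ∑ b, ∑ j, n2 ξ (star (P' a i * z * Q' b j) * (P' a i * z * Q' b j)) ^ 2 =
        ∑ t, ∑ i, n2 ξ (P' a i * X a t * P' a i) ^ 2 := by
      rw [← Equiv.sum_comp finProdFinEquiv, sum_comm, Fintype.sum_prod_type]
      simp only [hterm]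
      exact sum_congr rfl fun b _ => sum_comm
    rw [e]
    refine (hbound a).trans (add_le_add ?_ le_rfl)
    have hτ : ∀ t, (vecState ξ (X a t)).re = n2 ξ (R a (finProdFinEquiv.symm t)) ^ 2 := fun t => by
      simp only [X]
      rw [T.trace.comm _ (hR a _) _ (star_mem (hR a _)), ← n2_sq_eq hξ]
    have hX2 : ∀ t, n2 ξ (X a t) ^ 2 ≤ n2 ξ (R a (finProdFinEquiv.symm t)) ^ 2 := fun t => by
      refine pow_le_pow_left₀ (n2_nonneg _) ((T.n2_mul_le' (hR a _) (star_mem (hR a _))).trans ?_) 2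
      exact mul_le_of_le_one_right (n2_nonneg _) (by rw [norm_star]; exact hRn a _)
    calc ∑ t, (3 * (vecState ξ (X a t)).re ^ 2 / trP ξ (P a) + 3 * n2 ξ (X a t) ^ 2 / r)
        ≤ ∑ t, (6 / r) * n2 ξ (R a (finProdFinEquiv.symm t)) ^ 2 := sum_le_sum fun t _ => by
          rw [hτ t, hPt]
          have h1 := hcell a (finProdFinEquiv.symm t)
          have h2 := hX2 t
          set u := n2 ξ (R a (finProdFinEquiv.symm t)) ^ 2
          have hu : 0 ≤ u := sq_nonneg _
          have h3 : 3 * u ^ 2 / (1 / (2 * K)) ≤ 3 / r * u := by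
            rw [div_le_iff₀ (by positivity)]
            calc 3 * u ^ 2 ≤ 3 * (u * (1 / (2 * K * r))) := by nlinarith
              _ = _ := by field_simp
          have h4 : 3 * n2 ξ (X a t) ^ 2 / r ≤ 3 / r * u := by
            rw [div_mul_eq_mul_div]
            exact div_le_div_of_nonneg_right (by linarith) hrR.le
          calc 3 * u ^ 2 / (1 / (2 * K)) + 3 * n2 ξ (X a t) ^ 2 / r ≤ 3 / r * u + 3 / r * u :=
                add_le_add h3 h4
            _ = 6 / r * u := by ring
      _ = 6 / r * ∑ x, n2 ξ (R a x) ^ 2 := by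
          rw [← mul_sum, Equiv.sum_comp finProdFinEquiv.symm fun x => n2 ξ (R a x) ^ 2]
      _ ≤ 6 / r * (1 / (2 * K)) := mul_le_mul_of_nonneg_left (hmass a) (by positivity)
      _ = _ := by field_simp; ring
  refine (sum_le_sum fun a _ => hrow a).trans_eq ?_
  rw [sum_const, card_univ, Fintype.card_fin, nsmul_eq_mul]
  field_simp
  ring

end Vale.Agent.P085
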