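import Vale.Agent.P085.Flat.MixFrame

/-!
# Equal partitions under which finitely many positive contractions spread out
-/

namespace Vale.Agent.P085

open scoped InnerProductSpace ComplexConjugate
open Finset

universe u

variable {H : Type u} [NormedAddCommGroup H] [InnerProductSpace ℂ H] [CompleteSpace H]
variable {M : VonNeumannAlgebra H} {ξ : ℕ → H}

namespace Mix

variable {r L : ℕ} {e f : H →L[ℂ] H} {F v : Fin r × Fin L → (H →L[ℂ] H)}

lemma sum_blocks_le (T : Setup M ξ) (u : Units M e f F v) {X : H →L[ℂ] H} (hX : X ∈ M)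
    (hXe : e * X * e = X) :
    ∑ j, ∑ k, n2 ξ (star (v j) * X * v k) ^ 2 ≤ n2 ξ X ^ 2 := by
  have h := T.n2_sq_blocks u.part u.part (fun _ _ => X) fun _ _ => hX
  have e1 : ∑ x : (Fin r × Fin L) × (Fin r × Fin L), F x.1 * X * F x.2 = X := by
    rw [Fintype.sum_prod_type]
    conv_rhs => rw [← hXe, ← u.part.total]
    simp only [sum_mul, mul_sum]
    exact sum_comm
  rw [e1, Fintype.sum_prod_type] at h
  rw [h]
  refine sum_le_sum fun j _ => sum_le_sum fun k _ => pow_le_pow_left₀ (n2_nonneg _) ?_ 2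
  refine le_of_eq_of_le (congrArg (n2 ξ) ?_) (n2_sandwich T (star_mem (u.mem j)) (u.mem k)
    (mul_mem (mul_mem (u.part.proj j).1 hX) (u.part.proj k).1)
    ((norm_star _).trans_le (u.norm_le j)) (u.norm_le k))
  simp only [mul_assoc, u.F_mul k]
  rw [← mul_assoc (star (v j)) (F j), u.star_F]

/-- the permutation average of the block sums of the diagonal -/
lemma sum_perm_blocks (T : Setup M ξ) (hr : 0 < r) (hL : 0 < L)
    (y : Fin r × Fin L → (H →L[ℂ] H)) :
    ∑ σ : Equiv.Perm (Fin r × Fin L), ∑ l, n2 ξ (∑ i, y (σ (i, l))) ^ 2 ≤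
      (Fintype.card (Equiv.Perm (Fin r × Fin L)) : ℝ) *
        (∑ j, n2 ξ (y j) ^ 2 + (r : ℝ) / (r * L) * n2 ξ (∑ j, y j) ^ 2) := by
  have hξ := T.summable
  letI : InnerProductSpace ℝ (lp (fun _ : ℕ => H) 2) := InnerProductSpace.rclikeToReal ℂ _
  set nP := (Fintype.card (Equiv.Perm (Fin r × Fin L)) : ℝ)
  simp only [← norm_emb hξ, map_sum]
  rw [sum_comm]
  have hl : ∀ l : Fin L, ((r : ℝ) * L) ^ 2 * ∑ σ : Equiv.Perm (Fin r × Fin L),
      ‖∑ i, emb hξ (y (σ (i, l)))‖ ^ 2 ≤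
        nP * ((r : ℝ) * ((r : ℝ) * L) * ∑ j, ‖emb hξ (y j)‖ ^ 2 +
          (r : ℝ) ^ 2 * ‖∑ j, emb hξ (y j)‖ ^ 2) := by
    intro l
    have h := sum_perm_sq (fun j => emb hξ (y j))
      (univ.image fun i : Fin r => (i, l))
    have hinj : Function.Injective fun i : Fin r => (i, l) := fun i k h => (Prod.ext_iff.1 h).1
    simp only [sum_image hinj.injOn, card_image_of_injective _ hinj, card_univ, Fintype.card_prod,
      Fintype.card_fin, Nat.cast_mul] at h
    exact h
  have h := sum_le_sum fun l (_ : l ∈ univ) => hl l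
  rw [← mul_sum, sum_const, card_univ, Fintype.card_fin, nsmul_eq_mul] at h
  have hrR : (0 : ℝ) < r := Nat.cast_pos.2 hr
  have hLR : (0 : ℝ) < L := Nat.cast_pos.2 hL
  have hn : 0 < ((r : ℝ) * L) ^ 2 := by positivity
  rw [← mul_le_mul_iff_right₀ hn]
  refine h.trans_eq ?_
  field_simp

/-- the sum of the diagonal is nearly scalar -/
lemma diag_le (T : Setup M ξ) (u : Units M e f F v) (he : IsProj M e) (hte : 0 < trP ξ e)
    (hr : 0 < r) (hL : 0 < L) (htf : trP ξ f = trP ξ e / (r * L))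
    {X : H →L[ℂ] H} (hX : X ∈ M) (hXe : e * X * e = X) (d : Fin r × Fin L → ℝ) :
    n2 ξ (∑ j, star (v j) * X * v j) ^ 2 ≤ ((r : ℝ) * L) *
      ((vecState ξ X).re ^ 2 / trP ξ e +
        ∑ j, n2 ξ (F j * X * F j - (d j : ℂ) • F j) ^ 2) := by
  have hξ := T.summable
  set S := ∑ j, star (v j) * X * v j with hSdef
  set D := ∑ j, d j
  have hfS : f * S = S := by
    rw [hSdef, mul_sum]
    refine sum_congr rfl fun j _ => ?_
    simp only [← mul_assoc]
    congr 2
    rw [← u.proj.star_eq, ← star_mul, u.mul_f]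
  have hτS : vecState ξ S = vecState ξ X := by
    simp only [S, vecState_sum hξ]
    rw [sum_congr rfl fun j _ => by
      rw [mul_assoc, T.trace.comm _ (star_mem (u.mem j)) _ (mul_mem hX (u.mem j)), mul_assoc,
        u.mul_star], ← vecState_sum hξ, ← mul_sum, u.part.total]
    congr 1
    conv_lhs => rw [← hXe, mul_assoc, he.mul_self]
    exact hXe
  have herr : S - (D : ℂ) • f = ∑ j, star (v j) * (F j * X * F j - (d j : ℂ) • F j) * v j := by
    simp only [mul_sub, sub_mul, sum_sub_distrib, mul_smul_comm, smul_mul_assoc]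
    congr 1
    · refine sum_congr rfl fun j _ => ?_
      simp only [mul_assoc, u.F_mul j]
      rw [← mul_assoc (star (v j)) (F j), u.star_F]
    · simp only [D, Complex.ofReal_sum, sum_smul]
      exact sum_congr rfl fun j _ => by rw [u.star_F, u.star_mul]
  have hE : n2 ξ (S - (D : ℂ) • f) ^ 2 ≤
      ((r : ℝ) * L) * ∑ j, n2 ξ (F j * X * F j - (d j : ℂ) • F j) ^ 2 := by
    have h1 : n2 ξ (S - (D : ℂ) • f) ≤ ∑ j, n2 ξ (F j * X * F j - (d j : ℂ) • F j) := by
      rw [herr]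
      refine (n2_sum_le hξ _ _).trans (sum_le_sum fun j _ => n2_sandwich T (star_mem (u.mem j))
        (u.mem j) ?_ ((norm_star _).trans_le (u.norm_le j)) (u.norm_le j))
      exact sub_mem (mul_mem (mul_mem (u.part.proj j).1 hX) (u.part.proj j).1)
        (smul_mem _ (u.part.proj j).1)
    refine (pow_le_pow_left₀ (n2_nonneg _) h1 2).trans ((sq_sum_le_card_mul_sum_sq).trans_eq ?_)
    simp [Fintype.card_prod]
  have hexp : n2 ξ (S - (D : ℂ) • f) ^ 2 =
      n2 ξ S ^ 2 - 2 * D * (vecState ξ X).re + D ^ 2 * trP ξ f := by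
    have h1 : vecState ξ (star f * S) = vecState ξ X := by rw [u.proj.star_eq, hfS, hτS]
    rw [← norm_emb hξ, map_sub, map_smul, norm_sub_sq (𝕜 := ℂ), inner_smul_right, norm_smul,
      norm_emb, norm_emb, ← inner_conj_symm, inner_emb, h1, trP, mul_pow, Complex.norm_real,
      Real.norm_eq_abs, sq_abs]
    simp
    ring
  rw [hexp, htf] at hE
  have hrR : (0 : ℝ) < r := Nat.cast_pos.2 hr
  have hLR : (0 : ℝ) < L := Nat.cast_pos.2 hL
  have hsq : 2 * D * (vecState ξ X).re - D ^ 2 * (trP ξ e / (r * L)) ≤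
      (r : ℝ) * L * ((vecState ξ X).re ^ 2 / trP ξ e) := by
    rw [← sub_nonneg]
    have e : (r : ℝ) * L * ((vecState ξ X).re ^ 2 / trP ξ e) -
        (2 * D * (vecState ξ X).re - D ^ 2 * (trP ξ e / (r * L))) =
        ((r : ℝ) * L * (vecState ξ X).re - D * trP ξ e) ^ 2 / (r * L * trP ξ e) := by
      field_simp
      ring
    rw [e]
    positivity
  rw [mul_add]
  linarith

/-- the average over signs and permutations for one element -/
lemma sum_cells_le (T : Setup M ξ) (u : Units M e f F v) (he : IsProj M e) (hte : 0 < trP ξ e)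
    (hr : 0 < r) (hL : 0 < L) (htf : trP ξ f = trP ξ e / (r * L)) {U : Fin r → Fin r → ℂ}
    (hU2 : ∀ g i, ‖U g i‖ ^ 2 = (r : ℝ)⁻¹)
    (hU : ∀ g h, ∑ i, (starRingEnd ℂ) (U g i) * U h i = if g = h then 1 else 0)
    {X : H →L[ℂ] H} (hX : X ∈ M) (hXe : e * X * e = X) (d : Fin r × Fin L → ℝ) :
    ∑ σ : Equiv.Perm (Fin r × Fin L), ∑ ε : Fin r × Fin L → Bool,
        ∑ g, n2 ξ (cell U v σ ε g * X * cell U v σ ε g) ^ 2 ≤
      (Fintype.card (Equiv.Perm (Fin r × Fin L)) : ℝ) *
          (Fintype.card (Fin r × Fin L → Bool) : ℝ) *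
        (3 * (n2 ξ X ^ 2 / r) + (vecState ξ X).re ^ 2 / trP ξ e +
          ∑ j, n2 ξ (F j * X * F j - (d j : ℂ) • F j) ^ 2) := by
  set nP := (Fintype.card (Equiv.Perm (Fin r × Fin L)) : ℝ)
  set nE := (Fintype.card (Fin r × Fin L → Bool) : ℝ)
  have hrR : (0 : ℝ) < r := Nat.cast_pos.2 hr
  have hLR : (0 : ℝ) < L := Nat.cast_pos.2 hL
  set y := fun j k => star (v j) * X * v k
  have hblock := sum_blocks_le T u hX hXe
  have h1 : ∀ σ : Equiv.Perm (Fin r × Fin L), ∑ ε : Fin r × Fin L → Bool,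
      ∑ g, n2 ξ (cell U v σ ε g * X * cell U v σ ε g) ^ 2 ≤
      nE * ((r : ℝ)⁻¹ * ∑ l, n2 ξ (∑ i, y (σ (i, l)) (σ (i, l))) ^ 2 +
        2 * ((r : ℝ)⁻¹ * n2 ξ X ^ 2)) := by
    intro σ
    calc ∑ ε : Fin r × Fin L → Bool, ∑ g, n2 ξ (cell U v σ ε g * X * cell U v σ ε g) ^ 2
        ≤ ∑ ε : Fin r × Fin L → Bool, ∑ g, ∑ l, ∑ l',
            n2 ξ (star (recomb U v σ ε (g, l)) * X * recomb U v σ ε (g, l')) ^ 2 :=
          sum_le_sum fun ε _ => sum_le_sum fun g _ => cell_compress U σ ε T u hU hX g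
      _ = ∑ g, ∑ l, ∑ l', ∑ ε : Fin r × Fin L → Bool,
            n2 ξ (star (recomb U v σ ε (g, l)) * X * recomb U v σ ε (g, l')) ^ 2 := by
          rw [sum_comm]
          refine sum_congr rfl fun g _ => ?_
          rw [sum_comm]
          exact sum_congr rfl fun l _ => sum_comm
      _ ≤ ∑ _g : Fin r, ∑ l, ∑ l', nE *
            ((if l = l' then (r : ℝ)⁻¹ ^ 2 * n2 ξ (∑ i, y (σ (i, l)) (σ (i, l))) ^ 2 else 0) +
              2 * ((r : ℝ)⁻¹ ^ 2 * ∑ i, ∑ k, n2 ξ (y (σ (i, l)) (σ (k, l'))) ^ 2)) :=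
          sum_le_sum fun g _ => sum_le_sum fun l _ => sum_le_sum fun l' _ =>
            sum_signs_compress U σ T hU2 X g l l'
      _ = nE * ((r : ℝ)⁻¹ * ∑ l, n2 ξ (∑ i, y (σ (i, l)) (σ (i, l))) ^ 2 +
            2 * ((r : ℝ)⁻¹ * ∑ j, ∑ k, n2 ξ (y j k) ^ 2)) := by
          have e : ∑ l, ∑ l', ∑ i, ∑ k, n2 ξ (y (σ (i, l)) (σ (k, l'))) ^ 2 =
              ∑ j, ∑ k, n2 ξ (y j k) ^ 2 := by
            rw [← Equiv.sum_comp σ fun j => ∑ k, n2 ξ (y j k) ^ 2, Fintype.sum_prod_type]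
            conv_rhs => rw [sum_comm]
            refine sum_congr rfl fun l _ => ?_
            rw [sum_comm]
            refine sum_congr rfl fun i _ => ?_
            rw [← Equiv.sum_comp σ fun k => n2 ξ (y (σ (i, l)) k) ^ 2, Fintype.sum_prod_type,
              sum_comm]
          simp only [← mul_sum, sum_add_distrib, sum_ite_eq, mem_univ, if_true, e, sum_const,
            card_univ, Fintype.card_fin, nsmul_eq_mul]
          field_simp
      _ ≤ _ := by gcongr
  have h2 : ∑ j, n2 ξ (y j j) ^ 2 ≤ n2 ξ X ^ 2 := le_trans (sum_le_sum fun j _ =>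
    single_le_sum (f := fun k => n2 ξ (y j k) ^ 2) (fun k _ => sq_nonneg _) (mem_univ j)) hblock
  refine (sum_le_sum fun σ _ => h1 σ).trans ?_
  rw [← mul_sum, sum_add_distrib, ← mul_sum, sum_const, card_univ, nsmul_eq_mul]
  refine le_of_le_of_eq (mul_le_mul_of_nonneg_left (add_le_add
    (mul_le_mul_of_nonneg_left ((sum_perm_blocks T hr hL fun j => y j j).trans
      (mul_le_mul_of_nonneg_left (add_le_add h2 (mul_le_mul_of_nonneg_left
        (diag_le T u he hte hr hL htf hX hXe d) (by positivity))) (Nat.cast_nonneg _)))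
          (by positivity)) le_rfl) (Nat.cast_nonneg _)) ?_
  field_simp
  ring

/-- A recombination of equal cells in which a family of elements has nearly scalar diagonal
spreads the family out. -/
lemma exists_spread (T : Setup M ξ) (u : Units M e f F v) (he : IsProj M e) (hte : 0 < trP ξ e)
    (hr : 0 < r) (hL : 0 < L) (htf : trP ξ f = trP ξ e / (r * L))
    {m : ℕ} (X : Fin m → (H →L[ℂ] H)) (hX : ∀ t, X t ∈ M) (hXe : ∀ t, e * X t * e = X t)
    (d : Fin m → Fin r × Fin L → ℝ) :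
    ∃ E : Fin r → (H →L[ℂ] H), IsPartition M e E ∧ (∀ i, trP ξ (E i) = trP ξ e / r) ∧
      ∑ t, ∑ i, n2 ξ (E i * X t * E i) ^ 2 ≤
        ∑ t, (3 * (n2 ξ (X t) ^ 2 / r) + (vecState ξ (X t)).re ^ 2 / trP ξ e +
          ∑ j, n2 ξ (F j * X t * F j - (d t j : ℂ) • F j) ^ 2) := by
  obtain ⟨U, hU2, hU, hU'⟩ := exists_phases r hr
  obtain ⟨⟨σ, ε⟩, -, hω⟩ := exists_le_of_sum_le
    (s := (univ : Finset (Equiv.Perm (Fin r × Fin L) × (Fin r × Fin L → Bool)))) univ_nonempty
    (f := fun ω => ∑ t, ∑ g, n2 ξ (cell U v ω.1 ω.2 g * X t * cell U v ω.1 ω.2 g) ^ 2)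
    (g := fun _ => ∑ t, (3 * (n2 ξ (X t) ^ 2 / r) + (vecState ξ (X t)).re ^ 2 / trP ξ e +
      ∑ j, n2 ξ (F j * X t * F j - (d t j : ℂ) • F j) ^ 2)) (by
      rw [sum_comm, sum_const, card_univ, Fintype.card_prod, nsmul_eq_mul, mul_sum, Nat.cast_mul]
      refine sum_le_sum fun t _ => ?_
      rw [Fintype.sum_prod_type]
      exact sum_cells_le T u he hte hr hL htf hU2 hU (hX t) (hXe t) (d t))
  refine ⟨cell U v σ ε, cell_partition U σ ε u hU hU', fun i => ?_, hω⟩
  rw [cell_trP U σ ε T u hU, htf]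
  have hLR : (0 : ℝ) < L := Nat.cast_pos.2 hL
  field_simp

end Mix

/-- equal partitions of a cell under which finitely many positive contractions spread out -/
theorem mixOut (T : Setup M ξ) (hPave : PaveOut M ξ) (hAd : AdaptedOut M ξ) (hEq : EquivOut M ξ) :
    MixOut M ξ := by
  intro e he hte m X hX r hr θ hθ
  have hξ := T.summable
  have hsa : ∀ t, IsSelfAdjoint (X t) := fun t => (hX t).2.1.isSelfAdjoint
  have hXe : ∀ t, X t * e = X t := fun t => by
    have := congrArg star (hX t).2.2.2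
    rwa [star_mul, (hsa t).star_eq, he.star_eq] at this
  set θ' := min 1 (θ / (2 * (m + 1))) with hθ'
  have hθ'0 : 0 < θ' := lt_min one_pos (by positivity)
  obtain ⟨N, E, hE, hc⟩ := hPave e he m X
    (fun t => ⟨(hX t).1, hsa t, (hX t).2.2.1, (hX t).2.2.2⟩) θ' hθ'0
  choose c hc1 hc2 using hc
  obtain ⟨L, hL⟩ := exists_nat_ge (2 * m * N / θ + 1)
  have hL0 : 0 < L := Nat.cast_pos.1 (lt_of_lt_of_le (by positivity) hL)
  obtain ⟨F₀, S, hF₀, htr₀, hScard, hS₀⟩ := hAd e he hte N E hE (r * L) (Nat.mul_pos hr hL0)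
  choose k hk using hS₀
  set F := fun j : Fin r × Fin L => F₀ (finProdFinEquiv j)
  have hF : IsPartition M e F :=
    ⟨fun j => hF₀.proj _, fun i j h => hF₀.orth _ _ (finProdFinEquiv.injective.ne h), by
      rw [← hF₀.total]; exact Equiv.sum_comp finProdFinEquiv F₀⟩
  have htr : ∀ j, trP ξ (F j) = trP ξ e / (r * L) := fun j => by
    simp only [F, htr₀, Nat.cast_mul]
  set j₀ : Fin r × Fin L := (⟨0, hr⟩, ⟨0, hL0⟩)
  choose v hv hvs hvr using fun j => hEq (F j₀) (F j) (hF.proj j₀) (hF.proj j) (by rw [htr, htr])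
  set d := fun (t : Fin m) (j : Fin r × Fin L) =>
    if h : finProdFinEquiv j ∈ S then (0 : ℝ) else c t (k _ h)
  obtain ⟨G, hG, htG, hb⟩ := Mix.exists_spread T ⟨hF.proj j₀, hF, hv, hvs, hvr⟩ he hte hr hL0 (htr j₀)
    X (fun t => (hX t).1) (fun t => by rw [(hX t).2.2.2, hXe t]) d
  refine ⟨G, hG, htG, hb.trans ?_⟩
  have herr : ∀ t, ∑ j, n2 ξ (F j * X t * F j - (d t j : ℂ) • F j) ^ 2 ≤
      θ' ^ 2 + N * (trP ξ e / (r * L)) := by
    intro t
    set Z := ∑ i, E i * X t * E i - ∑ i, (c t i : ℂ) • E i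
    have hZ : Z ∈ M := sub_mem (sum_mem fun i _ => mul_mem (mul_mem (hE.proj i).1 (hX t).1)
      (hE.proj i).1) (sum_mem fun i _ => Mix.smul_mem _ (hE.proj i).1)
    have hterm : ∀ j, n2 ξ (F j * X t * F j - (d t j : ℂ) • F j) ^ 2 ≤
        n2 ξ (F j * Z * F j) ^ 2 +
          if finProdFinEquiv j ∈ S then trP ξ e / (r * L) else 0 := by
      intro j
      by_cases h : finProdFinEquiv j ∈ S
      · simp only [d, dif_pos h, if_pos h, Complex.ofReal_zero, zero_smul, sub_zero]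
        refine le_add_of_nonneg_of_le (sq_nonneg _) ?_
        rw [← htr j, trP, mul_assoc]
        refine pow_le_pow_left₀ (n2_nonneg _) ((T.n2_mul_le' (hF.proj j).1
          (mul_mem (hX t).1 (hF.proj j).1)).trans ?_) 2
        exact mul_le_of_le_one_right (n2_nonneg _) ((norm_mul_le _ _).trans
          (mul_le_one₀ (hX t).2.2.1 (norm_nonneg _) (hF.proj j).norm_le_one))
      · simp only [d, dif_neg h, if_neg h, add_zero]
        have h1 : F j * E (k _ h) = F j := hk _ h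
        have h2 : E (k _ h) * F j = F j := (hE.proj _).mul_symm (hF.proj j) h1
        have h3 : ∀ i, F j * E i = if k _ h = i then F j else 0 := fun i => by
          split_ifs with hi
          · rw [← hi, h1]
          · rw [← h1, mul_assoc, hE.orth _ _ hi, mul_zero]
        have e : F j * Z * F j = F j * X t * F j - (c t (k _ h) : ℂ) • F j := by
          simp only [Z, mul_sub, sub_mul, mul_sum, sum_mul, mul_smul_comm, smul_mul_assoc,
            ← mul_assoc (F j), h3, ite_mul, zero_mul, smul_ite, smul_zero, sum_ite_eq, mem_univ,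
            if_true]
          rw [mul_assoc (F j * X t), h2, (hF.proj j).mul_self]
        rw [e]
    refine (sum_le_sum fun j _ => hterm j).trans ?_
    rw [sum_add_distrib]
    refine add_le_add ((T.sum_n2_sq_blocks_le he hF hZ).trans
      (pow_le_pow_left₀ (n2_nonneg _) (hc2 t) 2)) ?_
    rw [Equiv.sum_comp finProdFinEquiv fun j => if j ∈ S then trP ξ e / (r * L) else 0,
      sum_ite_mem, univ_inter, sum_const, nsmul_eq_mul]
    exact mul_le_mul_of_nonneg_right (Nat.cast_le.2 hScard) (by positivity)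
  have hone : trP ξ e ≤ 1 := T.trP_le_one he
  calc ∑ t, (3 * (n2 ξ (X t) ^ 2 / r) + (vecState ξ (X t)).re ^ 2 / trP ξ e +
        ∑ j, n2 ξ (F j * X t * F j - (d t j : ℂ) • F j) ^ 2)
      ≤ ∑ t : Fin m, ((3 * (vecState ξ (X t)).re ^ 2 / trP ξ e + 3 * n2 ξ (X t) ^ 2 / r) +
          (θ' ^ 2 + N * (trP ξ e / (r * L)))) := sum_le_sum fun t _ => by
        have h0 : 0 ≤ (vecState ξ (X t)).re ^ 2 / trP ξ e := by positivity
        rw [mul_div_assoc, mul_div_assoc]
        linarith [herr t]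
    _ ≤ _ := by
        rw [sum_add_distrib]
        refine add_le_add le_rfl ?_
        rw [sum_const, card_univ, Fintype.card_fin, nsmul_eq_mul, mul_add]
        have a1 : (m : ℝ) * θ' ^ 2 ≤ θ / 2 := by
          have h1 : θ' ≤ 1 := min_le_left _ _
          have h2 : θ' * (2 * (m + 1)) ≤ θ := (le_div_iff₀ (by positivity)).1 (min_le_right _ _)
          nlinarith
        have a2 : (m : ℝ) * (N * (trP ξ e / (r * L))) ≤ θ / 2 := by
          have hLR : (0 : ℝ) < L := Nat.cast_pos.2 hL0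
          have hr1 : (1 : ℝ) ≤ r := Nat.one_le_cast.2 hr
          have h1 : trP ξ e / (r * L) ≤ 1 / L := by
            rw [div_le_div_iff₀ (by positivity) hLR]
            nlinarith
          refine (mul_le_mul_of_nonneg_left (mul_le_mul_of_nonneg_left h1 (Nat.cast_nonneg _))
            (Nat.cast_nonneg _)).trans ?_
          have h2 : 2 * (m : ℝ) * N ≤ L * θ :=
            (div_le_iff₀ hθ).1 ((le_add_of_nonneg_right zero_le_one).trans hL)
          rw [← mul_assoc, mul_one_div, div_le_iff₀ hLR]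
          linarith
        linarith


end Vale.Agent.P085
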