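import Vale.Agent.P085.Interfaces2
import Vale.Agent.P085.Toolkit.Trace
import Vale.Agent.P085.Flat.MixAvg

/-!
# Recombining equal cells in blocks with signs and phases
-/

namespace Vale.Agent.P085.Mix

open scoped InnerProductSpace ComplexConjugate
open Finset

universe u

variable {H : Type u} [NormedAddCommGroup H] [InnerProductSpace ℂ H] [CompleteSpace H]
variable {M : VonNeumannAlgebra H} {ξ : ℕ → H}

lemma smul_mem (c : ℂ) {a : H →L[ℂ] H} (ha : a ∈ M) : c • a ∈ M :=
  M.toStarSubalgebra.smul_mem ha c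

lemma partIso_mul {v f : H →L[ℂ] H} (hf : IsStarProjection f) (h : star v * v = f) :
    v * f = v := by
  have e : star (v * f - v) * (v * f - v) = 0 := by
    rw [star_sub, star_mul, hf.isSelfAdjoint.star_eq, sub_mul, mul_sub, mul_sub,
      mul_assoc f, ← mul_assoc (star v), h, mul_assoc f, h]
    rw [hf.isIdempotentElem.eq, hf.isIdempotentElem.eq, sub_self]
  exact sub_eq_zero.1 ((CStarRing.star_mul_self_eq_zero_iff _).1 e)

lemma norm_le_one_of_star_mul {v f : H →L[ℂ] H} (hf : IsProj M f) (h : star v * v = f) :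
    ‖v‖ ≤ 1 := by
  have h' := CStarRing.norm_star_mul_self (x := v)
  rw [h] at h'
  nlinarith [hf.norm_le_one, norm_nonneg v]

/-- compressing by contractions decreases the trace norm -/
lemma n2_sandwich (T : Setup M ξ) {v w a : H →L[ℂ] H} (hv : v ∈ M) (hw : w ∈ M) (ha : a ∈ M)
    (hv1 : ‖v‖ ≤ 1) (hw1 : ‖w‖ ≤ 1) : n2 ξ (v * a * w) ≤ n2 ξ a :=
  ((T.n2_mul_le' (mul_mem hv ha) hw).trans (mul_le_of_le_one_right (n2_nonneg _) hw1)).trans
    ((n2_mul_le T.summable v a).trans (mul_le_of_le_one_left (n2_nonneg _) hv1))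

lemma isProj_sum {κ : Type*} (s : Finset κ) {Q : κ → (H →L[ℂ] H)} (hQ : ∀ i, IsProj M (Q i))
    (ho : ∀ i j, i ≠ j → Q i * Q j = 0) : IsProj M (∑ i ∈ s, Q i) := by
  refine ⟨sum_mem fun i _ => (hQ i).1, ?_, ?_⟩
  · rw [IsIdempotentElem, sum_mul]
    refine sum_congr rfl fun i hi => ?_
    rw [mul_sum, sum_eq_single i (fun j _ hj => ho i j hj.symm) (fun hn => absurd hi hn),
      (hQ i).mul_self]
  · rw [IsSelfAdjoint, star_sum]
    exact sum_congr rfl fun i _ => (hQ i).star_eq

/-- a unitary matrix of every size with entries of equal modulus -/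
lemma exists_phases (r : ℕ) (hr : 0 < r) :
    ∃ U : Fin r → Fin r → ℂ, (∀ g i, ‖U g i‖ ^ 2 = (r : ℝ)⁻¹) ∧
      (∀ g h, ∑ i, conj (U g i) * U h i = if g = h then 1 else 0) ∧
      ∀ i k, ∑ g, U g i * conj (U g k) = if i = k then 1 else 0 := by
  have hrR : (0 : ℝ) < r := Nat.cast_pos.2 hr
  have hζ := Complex.isPrimitiveRoot_exp r hr.ne'
  set ζ := Complex.exp (2 * Real.pi * Complex.I / r)
  have h1 : ‖ζ‖ = 1 := Complex.norm_eq_one_of_pow_eq_one hζ.pow_eq_one hr.ne'
  have hz : ζ ≠ 0 := hζ.ne_zero hr.ne'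
  have hc : conj ζ = ζ⁻¹ := by
    refine eq_inv_of_mul_eq_one_left ?_
    rw [mul_comm, Complex.mul_conj, Complex.normSq_eq_norm_sq, h1]
    norm_num
  set c : ℂ := (((Real.sqrt r)⁻¹ : ℝ) : ℂ)
  have hcc : conj c * c = (r : ℂ)⁻¹ := by
    simp only [c, Complex.conj_ofReal, ← Complex.ofReal_mul, ← mul_inv,
      Real.mul_self_sqrt hrR.le]
    simp
  have key : ∀ g h : Fin r,
      ∑ i : Fin r, conj (c * ζ ^ (g.1 * i.1)) * (c * ζ ^ (h.1 * i.1)) = if g = h then 1 else 0 := by
    intro g h
    set x := ζ ^ h.1 * (ζ ^ g.1)⁻¹ with hx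
    have hterm : ∀ i : Fin r,
        conj (c * ζ ^ (g.1 * i.1)) * (c * ζ ^ (h.1 * i.1)) = (r : ℂ)⁻¹ * x ^ i.1 := fun i => by
      rw [map_mul, mul_mul_mul_comm, hcc, map_pow, hc, hx, mul_pow, inv_pow, inv_pow, ← pow_mul,
        ← pow_mul, mul_comm (ζ ^ (g.1 * i.1))⁻¹]
    simp only [hterm, ← mul_sum]
    rw [Fin.sum_univ_eq_sum_range (fun i => x ^ i)]
    split_ifs with hgh
    · subst hgh
      rw [hx, mul_inv_cancel₀ (pow_ne_zero _ hz)]
      simp [hr.ne']
    · have hx1 : x ≠ 1 := fun e => hgh (Fin.ext (hζ.pow_inj g.isLt h.isLt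
        ((eq_of_div_eq_one ((div_eq_mul_inv _ _).trans (hx ▸ e))).symm)))
      have hxr : x ^ r = 1 := by
        rw [hx, mul_pow, inv_pow, pow_right_comm, hζ.pow_eq_one, one_pow, pow_right_comm,
          hζ.pow_eq_one, one_pow, inv_one, mul_one]
      rw [geom_sum_eq hx1, hxr, sub_self, zero_div, mul_zero]
  refine ⟨fun g i => c * ζ ^ (g.1 * i.1), fun g i => ?_, key, fun i k => ?_⟩
  · rw [norm_mul, norm_pow, h1, one_pow, mul_one, Complex.norm_real, Real.norm_eq_abs, sq_abs,
      inv_pow, Real.sq_sqrt hrR.le]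
  · refine Eq.trans ?_ ((key k i).trans (by simp only [eq_comm]))
    exact sum_congr rfl fun g _ => by simp only [mul_comm g.1]; rw [mul_comm]

variable {r L : ℕ}

/-- equal cells with matrix units -/
structure Units (M : VonNeumannAlgebra H) (e f : H →L[ℂ] H)
    (F v : Fin r × Fin L → (H →L[ℂ] H)) : Prop where
  proj : IsProj M f
  part : IsPartition M e F
  mem : ∀ j, v j ∈ M
  star_mul : ∀ j, star (v j) * v j = f
  mul_star : ∀ j, v j * star (v j) = F j

namespace Units

variable {e f : H →L[ℂ] H} {F v : Fin r × Fin L → (H →L[ℂ] H)} (u : Units M e f F v)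
include u

lemma mul_f (j) : v j * f = v j := partIso_mul u.proj.2 (u.star_mul j)

lemma F_mul (j) : F j * v j = v j := by rw [← u.mul_star, mul_assoc, u.star_mul, u.mul_f]

lemma star_F (j) : star (v j) * F j = star (v j) := by
  conv_rhs => rw [← u.F_mul j]
  rw [StarMul.star_mul, (u.part.proj j).star_eq]

lemma star_mul_eq (j k) : star (v j) * v k = if j = k then f else 0 := by
  split_ifs with h
  · subst h; exact u.star_mul j
  · rw [← u.F_mul k, ← mul_assoc, ← u.star_F j, mul_assoc (star (v j)), u.part.orth j k h,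
      mul_zero, zero_mul]

lemma norm_le (j) : ‖v j‖ ≤ 1 := norm_le_one_of_star_mul u.proj (u.star_mul j)

end Units

/-- the recombined partial isometries -/
noncomputable def recomb (U : Fin r → Fin r → ℂ) (v : Fin r × Fin L → (H →L[ℂ] H))
    (σ : Equiv.Perm (Fin r × Fin L)) (ε : Fin r × Fin L → Bool) (x : Fin r × Fin L) : H →L[ℂ] H :=
  ∑ i : Fin r, ((sgn (ε (i, x.2)) : ℂ) * U x.1 i) • v (σ (i, x.2))

/-- the recombined cells -/
noncomputable def cell (U : Fin r → Fin r → ℂ) (v : Fin r × Fin L → (H →L[ℂ] H))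
    (σ : Equiv.Perm (Fin r × Fin L)) (ε : Fin r × Fin L → Bool) (g : Fin r) : H →L[ℂ] H :=
  ∑ l : Fin L, recomb U v σ ε (g, l) * star (recomb U v σ ε (g, l))

variable {e f : H →L[ℂ] H} {F v : Fin r × Fin L → (H →L[ℂ] H)}
variable (U : Fin r → Fin r → ℂ) (σ : Equiv.Perm (Fin r × Fin L)) (ε : Fin r × Fin L → Bool)

lemma recomb_mem (u : Units M e f F v) (x : Fin r × Fin L) : recomb U v σ ε x ∈ M :=
  sum_mem fun _ _ => smul_mem _ (u.mem _)

lemma recomb_star_mul (u : Units M e f F v)
    (hU : ∀ g h, ∑ i, conj (U g i) * U h i = if g = h then 1 else 0) (x y : Fin r × Fin L) :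
    star (recomb U v σ ε x) * recomb U v σ ε y = if x = y then f else 0 := by
  have e1 : ∀ i k : Fin r, star (v (σ (i, x.2))) * v (σ (k, y.2)) =
      if i = k ∧ x.2 = y.2 then f else 0 := fun i k => by
    rw [u.star_mul_eq]
    simp only [σ.injective.eq_iff, Prod.mk.injEq]
  simp only [recomb, star_sum, sum_mul, mul_sum, star_smul, smul_mul_smul_comm, e1]
  by_cases hl : x.2 = y.2
  · simp only [hl, and_true, smul_ite, smul_zero, sum_ite_eq, sum_ite_eq', mem_univ, if_true,
      ← sum_smul]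
    have e2 : ∀ i : Fin r, star ((sgn (ε (i, y.2)) : ℂ) * U x.1 i) *
        ((sgn (ε (i, y.2)) : ℂ) * U y.1 i) = conj (U x.1 i) * U y.1 i := fun i => by
      simp only [Complex.star_def, map_mul, Complex.conj_ofReal]
      rw [mul_mul_mul_comm, ← Complex.ofReal_mul, sgn_sq, Complex.ofReal_one, one_mul]
    simp only [e2, hU]
    by_cases hg : x.1 = y.1
    · rw [if_pos hg, if_pos (Prod.ext hg hl), one_smul]
    · rw [if_neg hg, if_neg fun h => hg (congrArg Prod.fst h), zero_smul]
  · simp only [hl, and_false, if_false, smul_zero, sum_const_zero]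
    rw [if_neg fun h => hl (congrArg Prod.snd h)]

/-- the projection of one recombined partial isometry -/
lemma isProj_recomb (u : Units M e f F v)
    (hU : ∀ g h, ∑ i, conj (U g i) * U h i = if g = h then 1 else 0) (x : Fin r × Fin L) :
    IsProj M (recomb U v σ ε x * star (recomb U v σ ε x)) := by
  have hw := recomb_star_mul U σ ε u hU x x
  rw [if_pos rfl] at hw
  refine ⟨mul_mem (recomb_mem U σ ε u x) (star_mem (recomb_mem U σ ε u x)), ?_,
    IsSelfAdjoint.mul_star_self _⟩
  rw [IsIdempotentElem, mul_assoc, ← mul_assoc (star (recomb U v σ ε x)), hw, ← mul_assoc,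
    partIso_mul u.proj.2 hw]

lemma recomb_orth (u : Units M e f F v)
    (hU : ∀ g h, ∑ i, conj (U g i) * U h i = if g = h then 1 else 0) {x y : Fin r × Fin L}
    (h : x ≠ y) : recomb U v σ ε x * star (recomb U v σ ε x) *
      (recomb U v σ ε y * star (recomb U v σ ε y)) = 0 := by
  rw [mul_assoc, ← mul_assoc (star (recomb U v σ ε x)), recomb_star_mul U σ ε u hU, if_neg h,
    zero_mul, mul_zero]

/-- the cells split along the blocks -/
lemma cell_split (u : Units M e f F v)
    (hU : ∀ g h, ∑ i, conj (U g i) * U h i = if g = h then 1 else 0) (g : Fin r) :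
    IsPartition M (cell U v σ ε g)
      fun l => recomb U v σ ε (g, l) * star (recomb U v σ ε (g, l)) where
  proj _ := isProj_recomb U σ ε u hU _
  orth _ _ h := recomb_orth U σ ε u hU fun e => h (congrArg Prod.snd e)
  total := rfl

/-- the cells form a partition of `e` -/
lemma cell_partition (u : Units M e f F v)
    (hU : ∀ g h, ∑ i, conj (U g i) * U h i = if g = h then 1 else 0)
    (hU' : ∀ i k, ∑ g, U g i * conj (U g k) = if i = k then 1 else 0) :
    IsPartition M e (cell U v σ ε) where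
  proj g := isProj_sum univ (cell_split U σ ε u hU g).proj (cell_split U σ ε u hU g).orth
  orth g g' h := by
    simp only [cell, sum_mul, mul_sum]
    exact sum_eq_zero fun l _ => sum_eq_zero fun l' _ =>
      recomb_orth U σ ε u hU fun e => h (congrArg Prod.fst e)
  total := by
    have e1 : ∀ (l : Fin L), ∑ g : Fin r, recomb U v σ ε (g, l) * star (recomb U v σ ε (g, l)) =
        ∑ i : Fin r, F (σ (i, l)) := by
      intro l
      simp only [recomb, star_sum, star_smul, sum_mul, mul_sum, smul_mul_smul_comm]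
      rw [sum_comm]
      refine sum_congr rfl fun i _ => ?_
      rw [sum_comm]
      simp only [← sum_smul]
      have e2 : ∀ k : Fin r, ∑ g : Fin r, ((sgn (ε (k, l)) : ℂ) * U g k) *
          star ((sgn (ε (i, l)) : ℂ) * U g i) = if k = i then 1 else 0 := fun k => by
        have e3 : ∀ g, ((sgn (ε (k, l)) : ℂ) * U g k) * star ((sgn (ε (i, l)) : ℂ) * U g i) =
            ((sgn (ε (k, l)) * sgn (ε (i, l)) : ℝ) : ℂ) * (U g k * conj (U g i)) := fun g => by
          simp only [Complex.star_def, map_mul, Complex.conj_ofReal]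
          push_cast
          ring
        simp only [e3, ← mul_sum, hU']
        split_ifs with h
        · subst h; rw [sgn_sq, Complex.ofReal_one, one_mul]
        · rw [mul_zero]
      simp only [e2, ite_smul, one_smul, zero_smul, sum_ite_eq', mem_univ, if_true, u.mul_star]
    simp only [cell]
    rw [sum_comm]
    simp only [e1]
    rw [sum_comm, ← Fintype.sum_prod_type (f := fun x => F (σ x)), Equiv.sum_comp σ F,
      u.part.total]

lemma cell_trP (T : Setup M ξ) (u : Units M e f F v)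
    (hU : ∀ g h, ∑ i, conj (U g i) * U h i = if g = h then 1 else 0) (g : Fin r) :
    trP ξ (cell U v σ ε g) = L * trP ξ f := by
  have h := vecState_proj T.summable
    (isProj_sum univ (cell_split U σ ε u hU g).proj (cell_split U σ ε u hU g).orth).2
  rw [vecState_sum T.summable, sum_congr rfl fun l _ =>
    T.trace.comm _ (recomb_mem U σ ε u (g, l)) _ (star_mem (recomb_mem U σ ε u (g, l)))] at h
  simp only [recomb_star_mul U σ ε u hU, if_true, vecState_proj T.summable u.proj.2, sum_const,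
    card_univ, Fintype.card_fin, nsmul_eq_mul] at h
  exact_mod_cast h.symm

lemma cell_compress (T : Setup M ξ) (u : Units M e f F v)
    (hU : ∀ g h, ∑ i, conj (U g i) * U h i = if g = h then 1 else 0) {X : H →L[ℂ] H} (hX : X ∈ M)
    (g : Fin r) : n2 ξ (cell U v σ ε g * X * cell U v σ ε g) ^ 2 ≤
      ∑ l, ∑ l', n2 ξ (star (recomb U v σ ε (g, l)) * X * recomb U v σ ε (g, l')) ^ 2 := by
  have hp := cell_split U σ ε u hU g
  have h := T.n2_sq_blocks hp hp (fun _ _ => X) fun _ _ => hX
  rw [Fintype.sum_prod_type, Fintype.sum_prod_type] at h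
  have e1 : cell U v σ ε g * X * cell U v σ ε g = ∑ l : Fin L, ∑ l' : Fin L,
      recomb U v σ ε (g, l) * star (recomb U v σ ε (g, l)) * X *
        (recomb U v σ ε (g, l') * star (recomb U v σ ε (g, l'))) := by
    simp only [cell, sum_mul, mul_sum]
    exact sum_comm
  rw [e1, h]
  refine sum_le_sum fun l _ => sum_le_sum fun l' _ => pow_le_pow_left₀ (n2_nonneg _) ?_ 2
  have hw := fun x => recomb_mem U σ ε u x
  have hn : ∀ x, ‖recomb U v σ ε x‖ ≤ 1 := fun x =>
    norm_le_one_of_star_mul u.proj (by rw [recomb_star_mul U σ ε u hU, if_pos rfl])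
  refine le_of_eq_of_le (congrArg (n2 ξ) ?_) (n2_sandwich T (hw (g, l)) (star_mem (hw (g, l')))
    (mul_mem (mul_mem (star_mem (hw _)) hX) (hw _)) (hn _) ((norm_star _).trans_le (hn _)))
  simp only [mul_assoc]

/-- averaging the signs -/
lemma sum_signs_compress (T : Setup M ξ) (hU2 : ∀ g i, ‖U g i‖ ^ 2 = (r : ℝ)⁻¹) (X : H →L[ℂ] H)
    (g : Fin r) (l l' : Fin L) :
    ∑ ε : Fin r × Fin L → Bool,
        n2 ξ (star (recomb U v σ ε (g, l)) * X * recomb U v σ ε (g, l')) ^ 2 ≤
      (Fintype.card (Fin r × Fin L → Bool) : ℝ) *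
        ((if l = l' then (r : ℝ)⁻¹ ^ 2 *
            n2 ξ (∑ i, star (v (σ (i, l))) * X * v (σ (i, l))) ^ 2 else 0) +
          2 * ((r : ℝ)⁻¹ ^ 2 *
            ∑ i, ∑ k, n2 ξ (star (v (σ (i, l))) * X * v (σ (k, l'))) ^ 2)) := by
  have hξ := T.summable
  letI : InnerProductSpace ℝ (lp (fun _ : ℕ => H) 2) := InnerProductSpace.rclikeToReal ℂ _
  set c : Fin r × Fin L → Fin r × Fin L → lp (fun _ : ℕ => H) 2 := fun p q =>
    if p.2 = l ∧ q.2 = l' then
      (conj (U g p.1) * U g q.1) • emb hξ (star (v (σ p)) * X * v (σ q)) else 0 with hc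
  have e : ∀ ε : Fin r × Fin L → Bool,
      emb hξ (star (recomb U v σ ε (g, l)) * X * recomb U v σ ε (g, l')) =
        0 + ∑ p, ∑ q, (sgn (ε p) * sgn (ε q)) • c p q := by
    intro ε
    rw [zero_add, Fintype.sum_prod_type]
    simp only [c, Fintype.sum_prod_type, ite_and, smul_ite, smul_zero, sum_ite_eq', sum_ite_irrel,
      sum_const_zero, mem_univ, if_true]
    simp only [recomb, star_sum, star_smul, sum_mul, mul_sum, smul_mul_assoc, mul_smul_comm,
      map_sum, map_smul, smul_sum, smul_smul]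
    rw [sum_comm]
    refine sum_congr rfl fun i _ => sum_congr rfl fun k _ => ?_
    have hs : ∀ (s : ℝ) (z : lp (fun _ : ℕ => H) 2), s • z = (s : ℂ) • z := fun _ _ => rfl
    rw [hs, smul_smul]
    congr 1
    simp only [Complex.star_def, map_mul, Complex.conj_ofReal]
    push_cast
    ring
  have hnorm : ∀ i k, ‖conj (U g i) * U g k‖ ^ 2 = (r : ℝ)⁻¹ ^ 2 := fun i k => by
    rw [norm_mul, mul_pow, Complex.norm_conj, hU2, hU2, sq]
  have hphase : ∀ i, conj (U g i) * U g i = (r : ℂ)⁻¹ := fun i => by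
    rw [mul_comm, Complex.mul_conj, Complex.normSq_eq_norm_sq, hU2]
    push_cast
    rfl
  simp only [← norm_emb hξ, e]
  refine (sum_signs_quad c univ 0).trans_eq (congrArg₂ _ rfl (congrArg₂ _ ?_ ?_))
  · simp only [zero_add, Fintype.sum_prod_type, c, hphase]
    split_ifs with hll
    · subst hll
      simp only [and_self, sum_ite_eq', mem_univ, if_true, ← smul_sum, norm_smul, mul_pow,
        norm_inv, Complex.norm_natCast, map_sum]
    · rw [sum_eq_zero fun i _ => sum_eq_zero fun k _ => if_neg fun h => hll (h.1.symm.trans h.2)]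
      simp
  · simp only [Fintype.sum_prod_type, c, ite_and, apply_ite (fun z => ‖z‖ ^ 2), norm_zero,
      zero_pow two_ne_zero, sum_ite_irrel, sum_const_zero, sum_ite_eq', mem_univ, if_true,
      norm_smul, mul_pow, hnorm, mul_sum]

end Vale.Agent.P085.Mix
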