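import Vale.Agent.P085.Interfaces2
import Vale.Agent.P085.Toolkit.Trace
import Vale.Agent.P085.Toolkit.Compare
import Vale.Agent.P085.Toolkit.SpectralApprox

/-!
# Paving: finitely many elements with nearly scalar compressions (C1)

Over matrix units of equal cells the Fourier projections compress every cell to the same multiple
of themselves. So an element close to a combination of equal cells is compressed, nearly, to a
scalar; several elements are handled by refining inside each cell.
-/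

namespace Vale.Agent.P085

open scoped InnerProductSpace

universe u

variable {H : Type u} [NormedAddCommGroup H] [InnerProductSpace ℂ H] [CompleteSpace H]
variable {M : VonNeumannAlgebra H} {ξ : ℕ → H}

namespace Pave

/-- a character of `Fin N` -/
noncomputable def χ (N : ℕ) (m i : Fin N) : ℂ :=
  Complex.exp (2 * Real.pi * Complex.I / N) ^ ((m : ℕ) * (i : ℕ))

lemma χ_comm (N : ℕ) (m i : Fin N) : χ N m i = χ N i m := by rw [χ, χ, mul_comm (m : ℕ)]

lemma conj_ζ_mul (N : ℕ) :
    starRingEnd ℂ (Complex.exp (2 * Real.pi * Complex.I / N)) *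
      Complex.exp (2 * Real.pi * Complex.I / N) = 1 := by
  rw [← Complex.exp_conj, ← Complex.exp_add, ← Complex.exp_zero]
  congr 1
  simp only [map_div₀, map_mul, map_ofNat, map_natCast, Complex.conj_ofReal, Complex.conj_I]
  ring

lemma χ_orth {N : ℕ} (m n : Fin N) :
    ∑ i, starRingEnd ℂ (χ N m i) * χ N n i = if m = n then (N : ℂ) else 0 := by
  have hN : N ≠ 0 := (lt_of_le_of_lt (Nat.zero_le _) m.2).ne'
  have hpr := Complex.isPrimitiveRoot_exp N hN
  have hconj := conj_ζ_mul N
  unfold χ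
  generalize Complex.exp (2 * Real.pi * Complex.I / N) = ζ at hpr hconj ⊢
  have hterm : ∀ i : Fin N, starRingEnd ℂ (ζ ^ ((m : ℕ) * (i : ℕ))) * ζ ^ ((n : ℕ) * (i : ℕ)) =
      (starRingEnd ℂ ζ ^ (m : ℕ) * ζ ^ (n : ℕ)) ^ (i : ℕ) := fun i => by
    rw [map_pow, pow_mul, pow_mul, mul_pow]
  simp only [hterm]
  split_ifs with h
  · subst h
    simp [← mul_pow, hconj]
  · set r := starRingEnd ℂ ζ ^ (m : ℕ) * ζ ^ (n : ℕ) with hr
    have hr1 : r ≠ 1 := fun h1 => h <| Fin.ext <| hpr.pow_inj m.2 n.2 <| by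
      calc ζ ^ (m : ℕ) = ζ ^ (m : ℕ) * r := by rw [h1, mul_one]
        _ = (starRingEnd ℂ ζ * ζ) ^ (m : ℕ) * ζ ^ (n : ℕ) := by rw [hr, mul_pow]; ring
        _ = ζ ^ (n : ℕ) := by rw [hconj, one_pow, one_mul]
    have hrN : r ^ N = 1 := by
      rw [hr, mul_pow, ← pow_mul, ← pow_mul, mul_comm (m : ℕ), mul_comm (n : ℕ), pow_mul, pow_mul,
        ← map_pow, hpr.pow_eq_one, map_one, one_pow, one_pow, one_mul]
    rw [Fin.sum_univ_eq_sum_range (fun i => r ^ i), geom_sum_eq hr1, hrN, sub_self, zero_div]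

/-- projections compressing every cell of an equal partition to the same multiple of themselves -/
lemma exists_fourier (T : Setup M ξ) {e : H →L[ℂ] H} {N : ℕ} (hN : 0 < N)
    {F : Fin N → (H →L[ℂ] H)} (hF : IsPartition M e F) {t : ℝ} (ht : ∀ j, trP ξ (F j) = t) :
    ∃ G : Fin N → (H →L[ℂ] H), IsPartition M e G ∧
      ∀ m j, G m * F j * G m = (1 / (N : ℂ)) • G m := by
  classical
  set o : Fin N := ⟨0, hN⟩
  choose v hv hvs hvv using fun j =>
    Toolkit.equivOut T (F o) (F j) (hF.proj o) (hF.proj j) ((ht o).trans (ht j).symm)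
  have hvo : ∀ j, v j * F o = v j := fun j => by
    have hp := hF.proj o
    have h1 : star (v j * F o - v j) * (v j * F o - v j) = 0 := by
      rw [star_sub, star_mul, hp.star_eq]
      simp only [sub_mul, mul_sub, mul_assoc, ← mul_assoc (star (v j)), hvs, hp.mul_self, sub_self]
    exact sub_eq_zero.1 (CStarRing.star_mul_self_eq_zero_iff _ |>.1 h1)
  have hFv : ∀ i j, F j * v i = if j = i then v i else 0 := fun i j => by
    have hvi : F i * v i = v i := by rw [← hvv i, mul_assoc, hvs, hvo]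
    rw [← hvi, ← mul_assoc, hF.mul_eq j i]
    split_ifs with h
    · subst h; rw [hvi]
    · rw [zero_mul]
  have hsv : ∀ i j, star (v i) * v j = if i = j then F o else 0 := fun i j => by
    have h : star (v i) * v j = star (v i) * (F i * v j) := by
      rw [← mul_assoc]
      congr 1
      rw [← (hF.proj i).star_eq, ← star_mul, hFv i i, if_pos rfl]
    rw [h, hFv j i]
    split_ifs with hij
    · subst hij; exact hvs i
    · rw [mul_zero]
  set α : ℂ := (((Real.sqrt (N : ℝ))⁻¹ : ℝ) : ℂ) with hα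
  have hαα : starRingEnd ℂ α * α = 1 / (N : ℂ) := by
    rw [hα, Complex.conj_ofReal, ← Complex.ofReal_mul, ← mul_inv,
      Real.mul_self_sqrt (Nat.cast_nonneg N)]
    simp
  set w : Fin N → (H →L[ℂ] H) := fun m => α • ∑ i, χ N m i • v i with hw
  have hwM : ∀ m, w m ∈ M := fun m => M.toStarSubalgebra.smul_mem
    (sum_mem fun i _ => M.toStarSubalgebra.smul_mem (hv i) _) _
  have hNN : (N : ℂ) ≠ 0 := Nat.cast_ne_zero.2 hN.ne'
  have hws : ∀ m, star (w m) = starRingEnd ℂ α • ∑ i, starRingEnd ℂ (χ N m i) • star (v i) := by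
    intro m
    simp only [hw, star_smul, star_sum]
    rfl
  have hww : ∀ m n, star (w m) * w n = if m = n then F o else 0 := fun m n => by
    rw [hws, hw, smul_mul_smul_comm, hαα, Finset.sum_mul]
    simp only [Finset.mul_sum, smul_mul_smul_comm, hsv, smul_ite, smul_zero, Finset.sum_ite_eq,
      Finset.mem_univ, if_true]
    rw [← Finset.sum_smul, χ_orth, smul_smul]
    split_ifs <;> simp [hNN]
  have hwo : ∀ m, w m * F o = w m := fun m => by
    simp only [hw, smul_mul_assoc, Finset.sum_mul, hvo]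
  have hwFw : ∀ m j, star (w m) * F j * w m = (1 / (N : ℂ)) • F o := fun m j => by
    rw [mul_assoc, hws, hw]
    simp only [mul_smul_comm, Finset.mul_sum, hFv, smul_ite, smul_zero, Finset.sum_ite_eq,
      Finset.mem_univ, if_true, Finset.sum_mul, smul_mul_assoc, hsv, Finset.sum_ite_eq']
    simp only [smul_smul]
    congr 1
    have hu : starRingEnd ℂ (χ N m j) * χ N m j = 1 := by
      rw [χ, map_pow, ← mul_pow, conj_ζ_mul, one_pow]
    linear_combination hαα + (starRingEnd ℂ α * α) * hu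
  refine ⟨fun m => w m * star (w m),
    ⟨fun m => ⟨mul_mem (hwM m) (star_mem (hwM m)), ?_, IsSelfAdjoint.mul_star_self _⟩,
      fun m n hmn => ?_, ?_⟩, fun m j => ?_⟩
  · change w m * star (w m) * (w m * star (w m)) = w m * star (w m)
    rw [mul_assoc, ← mul_assoc (star (w m)), hww, if_pos rfl, ← mul_assoc, hwo]
  · rw [mul_assoc, ← mul_assoc (star (w m)), hww, if_neg hmn, zero_mul, mul_zero]
  · have h1 : ∀ m, w m * star (w m) = (1 / (N : ℂ)) •
        ∑ i, ∑ j, (starRingEnd ℂ (χ N j m) * χ N i m) • (v i * star (v j)) := fun m => by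
      rw [hws, hw, smul_mul_smul_comm, mul_comm α, hαα, Finset.sum_mul]
      congr 1
      refine Finset.sum_congr rfl fun i _ => ?_
      rw [Finset.mul_sum]
      refine Finset.sum_congr rfl fun j _ => ?_
      rw [smul_mul_smul_comm, χ_comm N m i, χ_comm N m j, mul_comm]
    simp only [h1]
    rw [← Finset.smul_sum, Finset.sum_comm]
    rw [Finset.smul_sum, ← hF.total]
    refine Finset.sum_congr rfl fun i _ => ?_
    rw [Finset.sum_comm]
    simp only [← Finset.sum_smul, χ_orth, ite_smul, zero_smul, Finset.sum_ite_eq',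
      Finset.mem_univ, if_true, smul_smul]
    rw [one_div_mul_cancel hNN, one_smul, hvv]
  · calc w m * star (w m) * F j * (w m * star (w m))
          = w m * (star (w m) * F j * w m) * star (w m) := by simp only [mul_assoc]
      _ = (1 / (N : ℂ)) • (w m * star (w m)) := by
        rw [hwFw, mul_smul_comm, smul_mul_assoc, hwo]

lemma pinch_le (T : Setup M ξ) {ι : Type*} [Fintype ι] {e : H →L[ℂ] H} (he : IsProj M e)
    {G : ι → (H →L[ℂ] H)} (hG : IsPartition M e G) {a : H →L[ℂ] H} (ha : a ∈ M) :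
    n2 ξ (∑ i, G i * a * G i) ≤ n2 ξ a := by
  classical
  refine (sq_le_sq₀ (n2_nonneg _) (n2_nonneg _)).1 ?_
  rw [T.n2_sq_pinch hG (fun _ => a) fun _ => ha]
  exact T.sum_n2_sq_blocks_le he hG ha

/-- one element -/
lemma exists_one (T : Setup M ξ) {e X : H →L[ℂ] H} (he : IsProj M e) (hX : X ∈ M)
    (hsa : IsSelfAdjoint X) (h1 : ‖X‖ ≤ 1) (heX : e * X = X) {θ : ℝ} (hθ : 0 < θ) :
    ∃ (N : ℕ) (G : Fin N → (H →L[ℂ] H)) (μ : ℝ), IsPartition M e G ∧ |μ| ≤ 1 ∧
      n2 ξ (∑ i, G i * X * G i - (μ : ℂ) • e) ≤ θ := by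
  classical
  rcases eq_or_lt_of_le (trP_nonneg (ξ := ξ) e) with h0 | hpos
  · have he0 : e = 0 := T.eq_zero_of_trP he h0.symm
    subst he0
    refine ⟨0, Fin.elim0, 0, ⟨fun i => Fin.elim0 i, fun i => Fin.elim0 i, by simp⟩, by simp, ?_⟩
    simpa [n2_zero T.summable] using hθ.le
  obtain ⟨m, c, E, hE, hc, -, happ⟩ := saApproxOut M e he X hX hsa heX (θ / 2) (half_pos hθ)
  set B := ∑ k, (c k : ℂ) • E k with hB
  obtain ⟨N₀, hN₀⟩ := exists_nat_gt ((‖B‖ ^ 2 + 1) * m * trP ξ e / (θ / 2) ^ 2)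
  set N := N₀ + 1
  have hN : 0 < N := Nat.succ_pos _
  obtain ⟨F, S, hF, hFt, hS, hin⟩ := Toolkit.adaptedOut T e he hpos m E hE N hN
  obtain ⟨G, hG, hGF⟩ := exists_fourier T hN hF hFt
  set d : Fin N → ℝ := fun j => if h : j ∈ S then 0 else c (hin j h).choose with hd
  have hd1 : ∀ j, |d j| ≤ 1 := fun j => by
    by_cases h : j ∈ S
    · simp [hd, h]
    · simpa [hd, h] using (hc _).trans h1
  have hBF : ∀ j, j ∉ S → B * F j = (d j : ℂ) • F j := fun j hj => by
    have h := (hin j hj).choose_spec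
    rw [hB, Finset.sum_mul, Finset.sum_eq_single (hin j hj).choose (fun k _ hk => ?_)
      (fun hn => absurd (Finset.mem_univ _) hn), smul_mul_assoc, (hE.proj _).mul_symm (hF.proj j) h]
    · simp [hd, hj]
    · rw [smul_mul_assoc, ← (hE.proj _).mul_symm (hF.proj j) h, ← mul_assoc, hE.orth _ _ hk,
        zero_mul, smul_zero]
  have hd0 : ∀ j ∈ S, d j = 0 := fun j hj => by simp [hd, hj]
  have hBB : B - ∑ j, (d j : ℂ) • F j = B * ∑ j ∈ S, F j := by
    have hBe : B * e = B := by simp only [hB, Finset.sum_mul, smul_mul_assoc, hE.cell_mul]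
    conv_lhs => rw [← hBe, ← hF.total, Finset.mul_sum, ← Finset.sum_sub_distrib]
    rw [Finset.mul_sum]
    refine (Finset.sum_subset (Finset.subset_univ S) fun j _ hj => ?_).symm.trans ?_
    · rw [hBF j hj, sub_self]
    · exact Finset.sum_congr rfl fun j hj => by rw [hd0 j hj]; simp
  have hBM : B ∈ M := sum_mem fun k _ => M.toStarSubalgebra.smul_mem (hE.proj k).1 _
  have hR : n2 ξ (B * ∑ j ∈ S, F j) ≤ θ / 2 := by
    refine (n2_mul_le T.summable _ _).trans ?_
    refine (sq_le_sq₀ (mul_nonneg (norm_nonneg _) (n2_nonneg _)) (half_pos hθ).le).1 ?_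
    rw [mul_pow, n2_sq_sum_of_orth T.summable S F fun i _ j _ hij => by
      rw [(hF.proj i).star_eq, hF.orth i j hij]; simp [vecState]]
    have hsum : ∑ j ∈ S, n2 ξ (F j) ^ 2 = (S.card : ℝ) * (trP ξ e / N) := by
      rw [Finset.sum_congr rfl fun j _ => (show n2 ξ (F j) ^ 2 = trP ξ e / N from hFt j),
        Finset.sum_const, nsmul_eq_mul]
    rw [hsum]
    have hNN : (N₀ : ℝ) < (N : ℝ) := by exact_mod_cast Nat.lt_succ_self N₀
    have hle : (‖B‖ ^ 2 + 1) * m * trP ξ e / (θ / 2) ^ 2 ≤ N := by linarith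
    rw [div_le_iff₀ (by positivity)] at hle
    calc ‖B‖ ^ 2 * ((S.card : ℝ) * (trP ξ e / N)) ≤ (‖B‖ ^ 2 + 1) * ((m : ℝ) * (trP ξ e / N)) := by
          gcongr
          · linarith
      _ ≤ (θ / 2) ^ 2 := by
          rw [← mul_assoc, mul_div_assoc', div_le_iff₀ (by positivity)]
          linarith
  set B' := ∑ j, (d j : ℂ) • F j with hB'
  set μ : ℝ := (∑ j, d j) / N with hμ
  have hNR : (0 : ℝ) < N := by exact_mod_cast hN
  refine ⟨N, G, μ, hG, ?_, ?_⟩
  · rw [hμ, abs_div, Nat.abs_cast, div_le_one hNR]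
    calc |∑ j, d j| ≤ ∑ j, |d j| := Finset.abs_sum_le_sum_abs _ _
      _ ≤ ∑ _j : Fin N, (1 : ℝ) := Finset.sum_le_sum fun j _ => hd1 j
      _ = N := by simp
  · have hmean : ∑ i, G i * B' * G i = (μ : ℂ) • e := by
      simp only [hB', Finset.mul_sum, Finset.sum_mul, mul_smul_comm, smul_mul_assoc, hGF, smul_smul]
      rw [Finset.sum_congr rfl fun i _ => (Finset.sum_smul
        (f := fun j => (d j : ℂ) * (1 / (N : ℂ))) (x := G i)).symm, ← Finset.smul_sum, hG.total]
      congr 1
      rw [hμ, ← Finset.sum_mul]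
      push_cast
      ring
    rw [← hmean, ← Finset.sum_sub_distrib,
      Finset.sum_congr rfl fun i _ => show G i * X * G i - G i * B' * G i = G i * (X - B') * G i by
        rw [mul_sub, sub_mul]]
    refine (pinch_le T he hG (sub_mem hX ?_)).trans ?_
    · exact sum_mem fun j _ => M.toStarSubalgebra.smul_mem (hF.proj j).1 _
    · calc n2 ξ (X - B') ≤ n2 ξ (X - B) + n2 ξ (B - B') := n2_sub_le T.summable _ _ _
        _ ≤ θ / 2 + θ / 2 := add_le_add ((T.n2_le_norm _).trans happ) (by rw [hBB]; exact hR)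
        _ = θ := add_halves θ

lemma sigma_refine {ι : Type*} [Fintype ι] {κ : ι → Type*} [∀ i, Fintype (κ i)]
    {e : H →L[ℂ] H} {E : ι → (H →L[ℂ] H)} (hE : IsPartition M e E)
    {G : ∀ i, κ i → (H →L[ℂ] H)} (hG : ∀ i, IsPartition M (E i) (G i)) :
    IsPartition M e fun x : (i : ι) × κ i => G x.1 x.2 where
  proj x := (hG x.1).proj x.2
  orth := by
    rintro ⟨i, a⟩ ⟨j, b⟩ hne
    by_cases hij : i = j
    · subst hij
      exact (hG i).orth a b fun hab => hne (by rw [hab])
    · simp only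
      rw [← (hG i).cell_mul a, ← (hG j).mul_cell b, mul_assoc, ← mul_assoc (E i), hE.orth i j hij,
        zero_mul, mul_zero]
  total := by
    rw [Fintype.sum_sigma]
    simp only [(hG _).total, hE.total]

end Pave

open Pave in
/-- (C1) -/
theorem paveOut (T : Setup M ξ) : PaveOut M ξ := by
  classical
  intro e he m X hX θ hθ
  induction m with
  | zero =>
    exact ⟨1, fun _ => e, ⟨fun _ => he, fun i j hij => absurd (Subsingleton.elim i j) hij, by simp⟩,
      fun t => Fin.elim0 t⟩
  | succ m ih =>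
    obtain ⟨N, E, hE, hold⟩ := ih (fun t => X t.castSucc) fun t => hX _
    obtain ⟨hXM, hXsa, hX1, -⟩ := hX (Fin.last m)
    set x := X (Fin.last m) with hx
    have hcell : ∀ k, ∃ (L : ℕ) (G : Fin L → (H →L[ℂ] H)) (μ : ℝ), IsPartition M (E k) G ∧
        |μ| ≤ 1 ∧ n2 ξ (∑ i, G i * (E k * x * E k) * G i - (μ : ℂ) • E k) ≤ θ / (N + 1) :=
      fun k => by
      have hEk := hE.proj k
      refine exists_one T hEk (mul_mem (mul_mem hEk.1 hXM) hEk.1) ?_ ?_ ?_ (by positivity)
      · rw [IsSelfAdjoint, star_mul, star_mul, hEk.star_eq, hXsa.star_eq, mul_assoc]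
      · calc ‖E k * x * E k‖ ≤ ‖E k * x‖ * ‖E k‖ := norm_mul_le _ _
          _ ≤ ‖E k‖ * ‖x‖ * ‖E k‖ := by gcongr; exact norm_mul_le _ _
          _ ≤ 1 * 1 * 1 := by gcongr <;> exact hEk.norm_le_one
          _ = 1 := by norm_num
      · rw [← mul_assoc, ← mul_assoc, hEk.mul_self]
    choose L G μ hG hμ hGμ using hcell
    set f : Fin (Fintype.card ((k : Fin N) × Fin (L k))) ≃ ((k : Fin N) × Fin (L k)) :=
      (Fintype.equivFin _).symm with hf
    have hP := sigma_refine hE hG
    have hP' : IsPartition M e fun i => G (f i).1 (f i).2 :=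
      ⟨fun i => hP.proj _, fun i j hij => hP.orth _ _ fun h => hij (f.injective h),
        (f.sum_comp fun y => G y.1 y.2).trans hP.total⟩
    refine ⟨_, fun i => G (f i).1 (f i).2, hP', fun t => ?_⟩
    have hGE : ∀ k a (y : H →L[ℂ] H), G k a * (E k * y * E k) * G k a = G k a * y * G k a :=
      fun k a y => by
        calc G k a * (E k * y * E k) * G k a = G k a * E k * y * (E k * G k a) := by
              simp only [mul_assoc]
          _ = _ := by rw [(hG k).cell_mul, (hG k).mul_cell]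
    refine Fin.lastCases ⟨fun i => μ (f i).1, fun i => hμ _, ?_⟩ (fun t => ?_) t
    · rw [f.sum_comp (fun y => G y.1 y.2 * X (Fin.last m) * G y.1 y.2),
        f.sum_comp (fun y => (μ y.1 : ℂ) • G y.1 y.2), Fintype.sum_sigma, Fintype.sum_sigma,
        ← Finset.sum_sub_distrib]
      refine (n2_sum_le T.summable _ _).trans ?_
      calc ∑ k, n2 ξ (∑ a, G k a * X (Fin.last m) * G k a - ∑ a, (μ k : ℂ) • G k a)
          ≤ ∑ _k : Fin N, θ / (N + 1) := by
            refine Finset.sum_le_sum fun k _ => ?_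
            rw [← Finset.smul_sum, (hG k).total,
              Finset.sum_congr rfl fun a _ => (hGE k a (X (Fin.last m))).symm]
            exact hGμ k
        _ ≤ θ := by
            rw [Finset.sum_const, Finset.card_univ, Fintype.card_fin, nsmul_eq_mul,
              mul_div_assoc', div_le_iff₀ (by positivity)]
            nlinarith
    · obtain ⟨c, hc, hcn⟩ := hold t
      refine ⟨fun i => c (f i).1, fun i => hc _, ?_⟩
      set D := ∑ k, E k * X t.castSucc * E k - ∑ k, (c k : ℂ) • E k with hD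
      have hDM : D ∈ M := sub_mem
        (sum_mem fun k _ => mul_mem (mul_mem (hE.proj k).1 (hX _).1) (hE.proj k).1)
        (sum_mem fun k _ => M.toStarSubalgebra.smul_mem (hE.proj k).1 _)
      have hGD : ∀ y : (k : Fin N) × Fin (L k), G y.1 y.2 * D * G y.1 y.2 =
          G y.1 y.2 * X t.castSucc * G y.1 y.2 - (c y.1 : ℂ) • G y.1 y.2 := by
        rintro ⟨k, a⟩
        have h0 : ∀ j, j ≠ k → G k a * E j = 0 := fun j hj => by
          rw [← (hG k).cell_mul a, mul_assoc, hE.orth k j (Ne.symm hj), mul_zero]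
        simp only [hD, mul_sub, sub_mul, Finset.mul_sum, Finset.sum_mul, mul_smul_comm,
          smul_mul_assoc]
        rw [Finset.sum_eq_single k (fun j _ hj => by simp only [← mul_assoc, h0 j hj, zero_mul])
            (fun hn => absurd (Finset.mem_univ k) hn),
          Finset.sum_eq_single k (fun j _ hj => by rw [h0 j hj, zero_mul, smul_zero])
            (fun hn => absurd (Finset.mem_univ k) hn),
          hGE k a, (hG k).cell_mul, ((hG k).proj a).mul_self]
      rw [f.sum_comp (fun y => G y.1 y.2 * X t.castSucc * G y.1 y.2),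
        f.sum_comp (fun y => (c y.1 : ℂ) • G y.1 y.2), ← Finset.sum_sub_distrib,
        Finset.sum_congr rfl fun y _ => (hGD y).symm]
      exact (pinch_le T he hP hDM).trans hcn

end Vale.Agent.P085
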